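import Vale.Agent.P128.TB.W2

/-! P116 V/Iso89 (helper89): the isoperimetric inequality for closed `C¹` curves, with a
Bonnesen-type stability estimate. -/

open Set MeasureTheory Filter Topology Complex

noncomputable section

namespace Vale.Agent.P116.V

theorem iso89_cs {g : ℝ → ℝ} (hg : Continuous g) {a b : ℝ} (hab : a < b) :
    (∫ t in a..b, g t) ^ 2 ≤ (b - a) * ∫ t in a..b, g t ^ 2 := by
  have h0 : 0 < b - a := sub_pos.2 hab
  obtain ⟨c, hc⟩ : ∃ c, ∫ t in a..b, g t = c * (b - a) := ⟨_, (div_mul_cancel₀ _ h0.ne').symm⟩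
  have h1 : 0 ≤ ∫ t in a..b, (g t ^ 2 - 2 * c * g t + c ^ 2) :=
    intervalIntegral.integral_nonneg hab.le fun t _ => by nlinarith [sq_nonneg (g t - c)]
  rw [intervalIntegral.integral_add (Continuous.intervalIntegrable (by fun_prop) _ _)
    intervalIntegrable_const, intervalIntegral.integral_sub
    (Continuous.intervalIntegrable (by fun_prop) _ _)
    (Continuous.intervalIntegrable (by fun_prop) _ _), intervalIntegral.integral_const_mul,
    intervalIntegral.integral_const, smul_eq_mul, hc] at h1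
  rw [hc]
  nlinarith [mul_nonneg h0.le h1]

theorem iso89_core {G G' : ℝ → ℂ} (hd : ∀ t, HasDerivAt G (G' t) t) (hc : Continuous G')
    (hp : Function.Periodic G (2 * Real.pi)) {lam A : ℝ} (hl : ∀ t, ‖G' t‖ ≤ lam)
    (hA : ∫ t in (-Real.pi)..Real.pi, ((starRingEnd ℂ) (G t) * G' t).im = 2 * A) :
    A ≤ Real.pi * lam ^ 2 ∧
      ∃ m, ∀ t, ‖G t - m‖ ≤ lam + √(8 * Real.pi * (Real.pi * lam ^ 2 - A)) := by
  have hπ := Real.pi_pos
  have hle : -Real.pi ≤ Real.pi := by linarith
  have hG : Continuous G := continuous_iff_continuousAt.2 fun t => (hd t).continuousAt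
  have l0 : 0 ≤ lam := (norm_nonneg _).trans (hl 0)
  obtain ⟨θ₁, h1⟩ := P128.W3 (g := fun t => (G t).re) (g' := fun t => (G' t).re)
    (fun t => reCLM.hasFDerivAt.comp_hasDerivAt t (hd t)) (continuous_re.comp hc)
    fun t => congrArg re (hp t)
  obtain ⟨θ₂, h2⟩ := P128.W3 (g := fun t => (G t).im) (g' := fun t => (G' t).im)
    (fun t => imCLM.hasFDerivAt.comp_hasDerivAt t (hd t)) (continuous_im.comp hc)
    fun t => congrArg im (hp t)
  rw [← intervalIntegral.integral_of_le hle, ← intervalIntegral.integral_of_le hle] at h1 h2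
  obtain ⟨m, m1, m2⟩ : ∃ m : ℂ, m.re = (G θ₁).re ∧ m.im = (G θ₂).im :=
    ⟨⟨(G θ₁).re, (G θ₂).im⟩, rfl, rfl⟩
  have a1 : ∫ t in (-Real.pi)..Real.pi, ‖G' t‖ ^ 2 ≤ 2 * Real.pi * lam ^ 2 := by
    refine (intervalIntegral.integral_mono_on hle ((hc.norm.pow 2).intervalIntegrable _ _)
      (intervalIntegrable_const (c := lam ^ 2))
      fun t _ => pow_le_pow_left₀ (norm_nonneg _) (hl t) 2).trans_eq ?_
    rw [intervalIntegral.integral_const, smul_eq_mul]
    ring
  have a2 : ∫ t in (-Real.pi)..Real.pi, ‖G t - m‖ ^ 2 ≤ 2 * Real.pi * lam ^ 2 := by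
    refine le_trans (le_trans (le_of_eq ?_) (add_le_add h1 h2)) (le_trans (le_of_eq ?_) a1)
    · rw [← intervalIntegral.integral_add (Continuous.intervalIntegrable (by fun_prop) _ _)
        (Continuous.intervalIntegrable (by fun_prop) _ _)]
      refine intervalIntegral.integral_congr fun t _ => ?_
      simp only [Complex.sq_norm, normSq_apply, sub_re, sub_im, m1, m2]
      ring
    · rw [← intervalIntegral.integral_add (Continuous.intervalIntegrable (by fun_prop) _ _)
        (Continuous.intervalIntegrable (by fun_prop) _ _)]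
      refine intervalIntegral.integral_congr fun t _ => ?_
      simp only [Complex.sq_norm, normSq_apply]
      ring
  have a3 : ∫ t in (-Real.pi)..Real.pi, ((starRingEnd ℂ) m * G' t).im = 0 := by
    have b1 := intervalIntegral.integral_eq_sub_of_hasDerivAt (a := -Real.pi) (b := Real.pi)
      (f := fun t => ((starRingEnd ℂ) m * G t).im) (f' := fun t => ((starRingEnd ℂ) m * G' t).im)
      (fun t _ => imCLM.hasFDerivAt.comp_hasDerivAt t ((hd t).const_mul _))
      (Continuous.intervalIntegrable (by fun_prop) _ _)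
    have b2 := hp (-Real.pi)
    rw [show -Real.pi + 2 * Real.pi = Real.pi by ring] at b2
    rw [b1, b2, sub_self]
  have cD : Continuous fun t => ‖G' t - I * (G t - m)‖ := by fun_prop
  have a4 : ∫ t in (-Real.pi)..Real.pi, ‖G' t - I * (G t - m)‖ ^ 2 ≤
      4 * (Real.pi * lam ^ 2 - A) := by
    have c1 : Continuous fun t => ((starRingEnd ℂ) (G t) * G' t).im :=
      continuous_im.comp ((continuous_conj.comp hG).mul hc)
    have c2 : Continuous fun t => ((starRingEnd ℂ) m * G' t).im := by fun_prop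
    have e : ∀ t, ‖G' t - I * (G t - m)‖ ^ 2 = ‖G' t‖ ^ 2 + ‖G t - m‖ ^ 2 -
        2 * (((starRingEnd ℂ) (G t) * G' t).im - ((starRingEnd ℂ) m * G' t).im) := fun t => by
      simp only [Complex.sq_norm, normSq_apply, sub_re, sub_im, mul_re, mul_im, I_re, I_im, conj_re,
        conj_im]
      ring
    have c3 : Continuous fun t =>
        2 * (((starRingEnd ℂ) (G t) * G' t).im - ((starRingEnd ℂ) m * G' t).im) :=
      (c1.sub c2).const_mul 2
    simp only [e]
    rw [intervalIntegral.integral_sub (Continuous.intervalIntegrable (by fun_prop) _ _)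
      (c3.intervalIntegrable _ _),
      intervalIntegral.integral_add (Continuous.intervalIntegrable (by fun_prop) _ _)
      (Continuous.intervalIntegrable (by fun_prop) _ _), intervalIntegral.integral_const_mul,
      intervalIntegral.integral_sub (c1.intervalIntegrable _ _) (c2.intervalIntegrable _ _), hA, a3]
    linarith
  have a5 : 0 ≤ ∫ t in (-Real.pi)..Real.pi, ‖G' t - I * (G t - m)‖ ^ 2 :=
    intervalIntegral.integral_nonneg hle fun t _ => sq_nonneg _
  have a6 : ∫ t in (-Real.pi)..Real.pi, ‖G' t - I * (G t - m)‖ ≤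
      √(8 * Real.pi * (Real.pi * lam ^ 2 - A)) := by
    refine Real.le_sqrt_of_sq_le ((iso89_cs cD (by linarith)).trans ?_)
    nlinarith
  refine ⟨by linarith, m, fun t => ?_⟩
  obtain ⟨s, hs, hmin⟩ := isCompact_Icc.exists_isMinOn (nonempty_Icc.2 hle)
    (f := fun t => ‖G t - m‖) (Continuous.continuousOn (by fun_prop))
  have a7 : ‖G s - m‖ ≤ lam := by
    have b1 := intervalIntegral.integral_mono_on (μ := volume) hle
      (intervalIntegrable_const (c := ‖G s - m‖ ^ 2))
      (Continuous.intervalIntegrable (u := fun t => ‖G t - m‖ ^ 2) (by fun_prop) _ _)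
      fun t ht => pow_le_pow_left₀ (norm_nonneg _) (hmin ht) 2
    rw [intervalIntegral.integral_const, smul_eq_mul] at b1
    refine abs_le_of_sq_le_sq' ?_ l0 |>.2
    nlinarith
  obtain ⟨u, hu, e⟩ := hp.exists_mem_Ico (by positivity) t (-Real.pi)
  have hu' : u ∈ Icc (-Real.pi) Real.pi := ⟨hu.1, by linarith [hu.2]⟩
  have n1 : ∀ x : ℝ, ‖exp (-(I * x))‖ = 1 := fun x => by
    rw [exp_neg, norm_inv, norm_exp_I_mul_ofReal, inv_one]
  have d1 : ∀ x : ℝ, HasDerivAt (fun x : ℝ => exp (-(I * x)) * (G x - m))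
      (exp (-(I * x)) * (G' x - I * (G x - m))) x := fun x =>
    ((((hasDerivAt_id' x).ofReal_comp.const_mul I).neg.cexp).mul
      ((hd x).sub_const m)).congr_deriv (by simp only [Pi.neg_apply, ofReal_one]; ring)
  have b1 := intervalIntegral.integral_eq_sub_of_hasDerivAt (a := s) (b := u) (fun x _ => d1 x)
    (Continuous.intervalIntegrable (by fun_prop) _ _)
  have b2 : ‖∫ x in s..u, exp (-(I * x)) * (G' x - I * (G x - m))‖ ≤
      ∫ t in (-Real.pi)..Real.pi, ‖G' t - I * (G t - m)‖ := by
    refine intervalIntegral.norm_integral_le_abs_integral_norm.trans ?_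
    simp only [norm_mul, n1, one_mul]
    refine (intervalIntegral.abs_integral_mono_interval (c := -Real.pi) (d := Real.pi) ?_
      (Eventually.of_forall fun x => norm_nonneg _) (cD.intervalIntegrable _ _)).trans_eq
      (abs_of_nonneg (intervalIntegral.integral_nonneg hle fun t _ => norm_nonneg _))
    rw [uIoc_of_le hle]
    exact Ioc_subset_Ioc (le_min hs.1 hu'.1) (max_le hs.2 hu'.2)
  have b3 := norm_sub_norm_le (exp (-(I * u)) * (G u - m)) (exp (-(I * s)) * (G s - m))
  rw [← b1, norm_mul, norm_mul, n1, n1, one_mul, one_mul] at b3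
  rw [e]
  linarith

/-- A closed `C¹` curve of length less than `2 π lam` has signed area `A ≤ π lam²` and lies in a
disc of radius `lam + √(8 π (π lam² - A))`. -/
theorem iso89 {γ γ' : ℝ → ℂ} (hd : ∀ t, HasDerivAt γ (γ' t) t) (hc : Continuous γ')
    (hp : Function.Periodic γ (2 * Real.pi)) {lam A : ℝ}
    (hl : ∫ t in (0 : ℝ)..2 * Real.pi, ‖γ' t‖ < 2 * Real.pi * lam)
    (hA : ∫ t in (0 : ℝ)..2 * Real.pi, ((starRingEnd ℂ) (γ t) * γ' t).im = 2 * A) :
    A ≤ Real.pi * lam ^ 2 ∧
      ∃ m, ∀ t, ‖γ t - m‖ ≤ lam + √(8 * Real.pi * (Real.pi * lam ^ 2 - A)) := by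
  have hπ := Real.pi_pos
  have hγ : Continuous γ := continuous_iff_continuousAt.2 fun t => (hd t).continuousAt
  have hp' : Function.Periodic γ' (2 * Real.pi) := fun t => by
    have h1 := (hd (t + 2 * Real.pi)).comp_add_const t (2 * Real.pi)
    rw [show (fun x => γ (x + 2 * Real.pi)) = γ from funext hp] at h1
    exact h1.unique (hd t)
  have l0 : 0 < lam := (mul_pos_iff_of_pos_left Real.two_pi_pos).1 (lt_of_le_of_lt
    (intervalIntegral.integral_nonneg (by positivity) fun t _ => norm_nonneg _) hl)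
  obtain ⟨η, η0, η1⟩ : ∃ η : ℝ, 0 < η ∧
      (∫ t in (0 : ℝ)..2 * Real.pi, ‖γ' t‖) + 2 * Real.pi * η = 2 * Real.pi * lam :=
    ⟨(2 * Real.pi * lam - ∫ t in (0 : ℝ)..2 * Real.pi, ‖γ' t‖) / (2 * Real.pi),
      div_pos (sub_pos.2 hl) (by positivity), by field_simp; ring⟩
  obtain ⟨w, hw⟩ : ∃ w : ℝ → ℝ, w = fun t => (‖γ' t‖ + η) / lam := ⟨_, rfl⟩
  have wc : Continuous w := by rw [hw]; fun_prop
  have w0 : ∀ t, η / lam ≤ w t := fun t => by
    rw [hw]
    exact div_le_div_of_nonneg_right (le_add_of_nonneg_left (norm_nonneg _)) l0.le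
  have w1 : ∀ t, 0 < w t := fun t => (div_pos η0 l0).trans_le (w0 t)
  have wp : Function.Periodic w (2 * Real.pi) := fun t => by rw [hw]; simp only [hp' t]
  have wI : ∀ a, ∫ t in a..a + 2 * Real.pi, w t = 2 * Real.pi := fun a => by
    rw [wp.intervalIntegral_add_eq a 0, zero_add, hw, intervalIntegral.integral_div,
      intervalIntegral.integral_add (hc.norm.intervalIntegrable _ _) intervalIntegrable_const,
      intervalIntegral.integral_const, smul_eq_mul, sub_zero, η1, mul_div_cancel_right₀ _ l0.ne']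
  obtain ⟨s, hs⟩ : ∃ s : ℝ → ℝ, s = fun t => -Real.pi + ∫ x in (0 : ℝ)..t, w x := ⟨_, rfl⟩
  have sd : ∀ t, HasDerivAt s (w t) t := fun t => by
    rw [hs]
    exact (wc.integral_hasStrictDerivAt 0 t).hasDerivAt.const_add _
  have sc : Continuous s := continuous_iff_continuousAt.2 fun t => (sd t).continuousAt
  have sm : StrictMono s := strictMono_of_hasDerivAt_pos sd w1
  have sp : ∀ t, s (t + 2 * Real.pi) = s t + 2 * Real.pi := fun t => by
    rw [hs]
    simp only
    rw [← intervalIntegral.integral_add_adjacent_intervals (b := t) (wc.intervalIntegrable _ _)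
      (wc.intervalIntegrable _ _), wI, add_assoc]
  have s0 : s 0 = -Real.pi := by rw [hs]; simp
  have ss : Function.Surjective s := by
    have q : Function.Periodic (fun t => s t - t) (2 * Real.pi) := fun t => by
      simp only [sp]
      ring
    intro y
    obtain ⟨n, hn⟩ := exists_nat_ge (|y + Real.pi| / (2 * Real.pi))
    rw [div_le_iff₀ (by positivity), abs_le] at hn
    have q1 := q.nat_mul_eq n
    have q2 := q.neg.nat_mul_eq n
    simp only [s0] at q1 q2
    exact intermediate_value_univ (n * -(2 * Real.pi)) (n * (2 * Real.pi)) sc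
      ⟨by linarith [hn.1], by linarith [hn.2]⟩
  let e := sm.orderIsoOfSurjective s ss
  have e1 : ∀ y, s (e.symm y) = y := e.apply_symm_apply
  have e2 : ∀ t, e.symm (s t) = t := e.symm_apply_apply
  have ec : Continuous e.symm := e.symm.continuous
  have ed : ∀ y, HasDerivAt e.symm (w (e.symm y))⁻¹ y := fun y =>
    HasDerivAt.of_local_left_inverse ec.continuousAt (sd _) (w1 _).ne' (Eventually.of_forall e1)
  have cG : Continuous fun y => (w (e.symm y))⁻¹ • γ' (e.symm y) :=
    ((wc.comp ec).inv₀ fun y => (w1 _).ne').smul (hc.comp ec)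
  obtain ⟨k1, m, k2⟩ := iso89_core (G := fun y => γ (e.symm y))
    (G' := fun y => (w (e.symm y))⁻¹ • γ' (e.symm y)) (lam := lam) (A := A)
    (fun y => (hd _).scomp y (ed y)) cG
    (fun y => by
      have h1 : e.symm (y + 2 * Real.pi) = e.symm y + 2 * Real.pi := by
        rw [← e2 (e.symm y + 2 * Real.pi), sp, e1]
      simp only [h1, hp (e.symm y)])
    (fun y => by
      rw [norm_smul, norm_inv, Real.norm_of_nonneg (w1 _).le, inv_mul_le_iff₀ (w1 _), hw]
      simp only
      rw [div_mul_cancel₀ _ l0.ne']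
      linarith)
    (by
      have h1 := intervalIntegral.integral_comp_mul_deriv (a := 0) (b := 2 * Real.pi)
        (fun t _ => sd t) wc.continuousOn
        (continuous_im.comp ((continuous_conj.comp (hγ.comp ec)).mul cG))
      have h2 := sp 0
      rw [zero_add, s0, show -Real.pi + 2 * Real.pi = Real.pi by ring] at h2
      rw [s0, h2] at h1
      rw [← hA]
      refine Eq.trans h1.symm (intervalIntegral.integral_congr fun t _ => ?_)
      simp only [Function.comp_apply, Pi.mul_apply, e2, mul_smul_comm, smul_im, smul_eq_mul]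
      rw [mul_right_comm, inv_mul_cancel₀ (w1 t).ne', one_mul])
  refine ⟨k1, m, fun t => ?_⟩
  have h1 := k2 (s t)
  rwa [e2] at h1

end Vale.Agent.P116.V
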